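import Vale.Agent.Lib.P194.Mod

/-!
P194, hand-in: over a field of characteristic p and for an arbitrary group G, if a b = 1 in
M_n(K[G]), then the idempotent 1 - b a is not equivalent to a nonzero idempotent matrix supported
in a finite subgroup; in particular b a = 1 as soon as b a is supported in a finite subgroup.
-/

namespace Vale.Agent.Results.P194.FiniteInduced

theorem result.{u, v} (p : ℕ) [Fact p.Prime] (K : Type u) [Field K] [CharP K p] (G : Type v)
    [Group G] (n : ℕ) (a b : Matrix (Fin n) (Fin n) (MonoidAlgebra K G)) (hab : a * b = 1)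
    (H : Subgroup G) (hH : Finite H) :
    ((∀ i j g, ((b * a) i j).coeff g ≠ 0 → g ∈ H) → b * a = 1) ∧
    (∀ (k : ℕ) (E : Matrix (Fin k) (Fin k) (MonoidAlgebra K H))
      (x : Matrix (Fin n) (Fin k) (MonoidAlgebra K G))
      (y : Matrix (Fin k) (Fin n) (MonoidAlgebra K G)),
      E * E = E → x * y = 1 - b * a → y * x = E.map (MonoidAlgebra.mapDomain H.subtype) →
      b * a = 1) :=
  ⟨Vale.Agent.P194.main3 p K G n a b hab H hH,
    fun k E x y hE hxy hyx => Vale.Agent.P194.main2 p K G n k a b hab H hH E x y hE hxy hyx⟩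

end Vale.Agent.Results.P194.FiniteInduced
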